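import Vale.Agent.P204.Main

/-!
# P204: Donaldson's tamed-to-compatible conjecture for fibre-invariant almost complex structures on
# all `T³`-bundles over the circle with linear monodromy (in particular on `T⁴`)
-/

open MeasureTheory
open scoped Matrix

namespace Vale.Agent.Results.P204.TorusBundles

open Vale.Agent.P204

theorem result (A : Matrix (Fin 3) (Fin 3) ℤ) (hA : IsUnit A.det) (J : R4 → M4)
    (hJ : IsAlmostComplex A J) (hJf : FibreInvariant J) :
    -- every symplectic form taming `J` gives a compatible one, equal on the fibres to its average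
    (∀ om : R4 → M4, IsSymplectic A om → Tames om J →
      ∃ om' : R4 → M4, IsSymplectic A om' ∧ Compatible om' J ∧
        ∀ z, ∀ i j : Fin 3, om' z i.succ j.succ =
          ∫ x in Set.Icc (0 : Fin 3 → ℝ) 1, om (Fin.cons (z 0) x) i.succ j.succ) ∧
    -- criterion: constant `A`-invariant two-form on the fibre, positive on the `J`-complex lines
    ((∃ om : R4 → M4, IsSymplectic A om ∧ Tames om J) ↔
      ∃ be : Matrix (Fin 3) (Fin 3) ℝ, beᵀ = -be ∧
        (A.map (Int.cast : ℤ → ℝ))ᵀ * be * A.map (Int.cast : ℤ → ℝ) = be ∧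
        ∀ z v : R4, v 0 = 0 → (J z *ᵥ v) 0 = 0 → v ≠ 0 →
          0 < ∑ i : Fin 3, ∑ j : Fin 3, v i.succ * be i j * (J z *ᵥ v) j.succ) := by
  refine ⟨fun om h ht => main hA hJ hJf h ht, ?_, ?_⟩
  · rintro ⟨om, h, ht⟩
    exact to_const hA hJ hJf h ht
  · rintro ⟨be, h1, h2, h3⟩
    obtain ⟨om', e1, e2, -⟩ := of_const hA hJ hJf h1 h2 h3
    exact ⟨om', e1, e2.1⟩

end Vale.Agent.Results.P204.TorusBundles
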